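import Vale.Agent.Lib.P015.Centre

/-!
# P015 helper: a window free of Gaussian primes blocks a walk inside a strip
-/

namespace Vale.Agent.Lib.P015

/-- A walk on irreducible Gaussian integers with steps of length at most `D`, confined to the
strip `|a x + b y - c| ≤ K`, cannot pass a sufficiently large window free of irreducibles whose
centre lies within `K1` of the line (measured by the linear form). -/
theorem barrier (a b c K K1 D : ℝ) (hab : 0 < a ^ 2 + b ^ 2) (z : ℕ → GaussianInt)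
    (hirr : ∀ k, Irreducible (z k))
    (hstep : ∀ k, (((z (k + 1)).re : ℝ) - (z k).re) ^ 2
      + (((z (k + 1)).im : ℝ) - (z k).im) ^ 2 ≤ D ^ 2)
    (hstrip : ∀ k, |a * (z k).re + b * (z k).im - c| ≤ K)
    (ρ : ℕ) (hρ : (|a| + |b|) * (K + K1 + (|a| + |b|) * |D|) ≤ ρ * (a ^ 2 + b ^ 2))
    (x y : ℤ) (hc : |a * x + b * y - c| ≤ K1)
    (hcomp : ∀ u v : ℤ, |u| ≤ ρ → |v| ≤ ρ → ¬ Irreducible (⟨x + u, y + v⟩ : GaussianInt))
    (h0 : -b * (z 0).re + a * (z 0).im < -b * x + a * y) :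
    ∀ k, -b * (z k).re + a * (z k).im < -b * x + a * y := by
  intro k
  induction k with
  | zero => exact h0
  | succ k ih =>
    by_contra hcon
    have hcon := not_lt.mp hcon
    obtain ⟨p, hp⟩ : ∃ p : GaussianInt, p = z (k + 1) := ⟨_, rfl⟩
    rw [← hp] at hcon
    have hs := hstep k
    have hl := hstrip (k + 1)
    rw [← hp] at hs hl
    have hirrp : Irreducible p := hp ▸ hirr (k + 1)
    have hdx : |(p.re : ℝ) - (z k).re| ≤ |D| := by
      apply sq_le_sq.mp
      nlinarith [sq_nonneg ((p.im : ℝ) - (z k).im)]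
    have hdy : |(p.im : ℝ) - (z k).im| ≤ |D| := by
      apply sq_le_sq.mp
      nlinarith [sq_nonneg ((p.re : ℝ) - (z k).re)]
    have hK0 : 0 ≤ K := le_trans (abs_nonneg _) hl
    have hK10 : 0 ≤ K1 := le_trans (abs_nonneg _) hc
    have hD0 : 0 ≤ (|a| + |b|) * |D| := by positivity
    have hL : |a * ((p.re : ℝ) - x) + b * ((p.im : ℝ) - y)| ≤ K + K1 := by
      have h1 : a * ((p.re : ℝ) - x) + b * ((p.im : ℝ) - y)
          = (a * p.re + b * p.im - c) - (a * x + b * y - c) := by ring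
      rw [h1]
      exact le_trans (abs_sub _ _) (add_le_add hl hc)
    have hS0 : 0 ≤ -b * ((p.re : ℝ) - x) + a * ((p.im : ℝ) - y) := by linarith
    have hS1 : -b * ((p.re : ℝ) - x) + a * ((p.im : ℝ) - y) ≤ (|a| + |b|) * |D| := by
      have h1 : |b * ((p.re : ℝ) - (z k).re)| ≤ |b| * |D| := by
        rw [abs_mul]; exact mul_le_mul_of_nonneg_left hdx (abs_nonneg _)
      have h2 : |a * ((p.im : ℝ) - (z k).im)| ≤ |a| * |D| := by
        rw [abs_mul]; exact mul_le_mul_of_nonneg_left hdy (abs_nonneg _)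
      have h3 := abs_le.mp h1
      have h4 := abs_le.mp h2
      linarith
    have hS : |-b * ((p.re : ℝ) - x) + a * ((p.im : ℝ) - y)| ≤ (|a| + |b|) * |D| := by
      rw [abs_of_nonneg hS0]; exact hS1
    have hu1 : |((p.re : ℝ) - x) * (a ^ 2 + b ^ 2)| ≤ ρ * (a ^ 2 + b ^ 2) := by
      have h1 : ((p.re : ℝ) - x) * (a ^ 2 + b ^ 2)
          = a * (a * ((p.re : ℝ) - x) + b * ((p.im : ℝ) - y))
            - b * (-b * ((p.re : ℝ) - x) + a * ((p.im : ℝ) - y)) := by ring
      rw [h1]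
      calc _ ≤ |a * (a * ((p.re : ℝ) - x) + b * ((p.im : ℝ) - y))|
              + |b * (-b * ((p.re : ℝ) - x) + a * ((p.im : ℝ) - y))| := abs_sub _ _
        _ = |a| * |a * ((p.re : ℝ) - x) + b * ((p.im : ℝ) - y)|
              + |b| * |-b * ((p.re : ℝ) - x) + a * ((p.im : ℝ) - y)| := by
            rw [abs_mul, abs_mul]
        _ ≤ |a| * (K + K1 + (|a| + |b|) * |D|) + |b| * (K + K1 + (|a| + |b|) * |D|) :=
            add_le_add (mul_le_mul_of_nonneg_left (by linarith) (abs_nonneg a))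
              (mul_le_mul_of_nonneg_left (by linarith) (abs_nonneg b))
        _ = (|a| + |b|) * (K + K1 + (|a| + |b|) * |D|) := by ring
        _ ≤ _ := hρ
    have hv1 : |((p.im : ℝ) - y) * (a ^ 2 + b ^ 2)| ≤ ρ * (a ^ 2 + b ^ 2) := by
      have h1 : ((p.im : ℝ) - y) * (a ^ 2 + b ^ 2)
          = b * (a * ((p.re : ℝ) - x) + b * ((p.im : ℝ) - y))
            + a * (-b * ((p.re : ℝ) - x) + a * ((p.im : ℝ) - y)) := by ring
      rw [h1]
      calc _ ≤ |b * (a * ((p.re : ℝ) - x) + b * ((p.im : ℝ) - y))|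
              + |a * (-b * ((p.re : ℝ) - x) + a * ((p.im : ℝ) - y))| := abs_add_le _ _
        _ = |b| * |a * ((p.re : ℝ) - x) + b * ((p.im : ℝ) - y)|
              + |a| * |-b * ((p.re : ℝ) - x) + a * ((p.im : ℝ) - y)| := by
            rw [abs_mul, abs_mul]
        _ ≤ |b| * (K + K1 + (|a| + |b|) * |D|) + |a| * (K + K1 + (|a| + |b|) * |D|) :=
            add_le_add (mul_le_mul_of_nonneg_left (by linarith) (abs_nonneg b))
              (mul_le_mul_of_nonneg_left (by linarith) (abs_nonneg a))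
        _ = (|a| + |b|) * (K + K1 + (|a| + |b|) * |D|) := by ring
        _ ≤ _ := hρ
    have hu2 : |(p.re : ℝ) - x| ≤ ρ := by
      rw [abs_mul, abs_of_pos hab] at hu1
      exact le_of_mul_le_mul_right hu1 hab
    have hv2 : |(p.im : ℝ) - y| ≤ ρ := by
      rw [abs_mul, abs_of_pos hab] at hv1
      exact le_of_mul_le_mul_right hv1 hab
    have hui : |p.re - x| ≤ (ρ : ℤ) := by exact_mod_cast hu2
    have hvi : |p.im - y| ≤ (ρ : ℤ) := by exact_mod_cast hv2
    apply hcomp (p.re - x) (p.im - y) hui hvi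
    have h5 : (⟨x + (p.re - x), y + (p.im - y)⟩ : GaussianInt) = p :=
      Zsqrtd.ext (by simp) (by simp)
    rw [h5]
    exact hirrp

end Vale.Agent.Lib.P015
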