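import Mathlib

/-!
# P015 helper: primes for the sieve pattern, a Chinese remainder statement,
and a density statement for irrational directions
-/

namespace Vale.Agent.Lib.P015

/-- Admissible primes: primes congruent to `1` modulo `4` exceeding `P0`. -/
def Adm (P0 : ℕ) (r : ℕ) : Prop := r.Prime ∧ r % 4 = 1 ∧ P0 < r

theorem adm_infinite (P0 : ℕ) : {r | Adm P0 r}.Infinite := by
  apply Set.infinite_of_forall_exists_gt
  intro n
  obtain ⟨p, hp, hlt, hmod⟩ := Nat.exists_prime_gt_modEq_one (k := 4) (max n P0) (by norm_num)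
  refine ⟨p, ⟨hp, ?_, lt_of_le_of_lt (le_max_right _ _) hlt⟩, lt_of_le_of_lt (le_max_left _ _) hlt⟩
  have h1 : p % 4 = 1 % 4 := hmod
  omega

/-- The prime attached to the window offset `w`. -/
noncomputable def pr (P0 : ℕ) (w : ℤ × ℤ) : ℕ := Nat.nth (Adm P0) (Encodable.encode w)

theorem pr_adm (P0 : ℕ) (w : ℤ × ℤ) : Adm P0 (pr P0 w) :=
  Nat.nth_mem_of_infinite (adm_infinite P0) _

theorem pr_injective (P0 : ℕ) : Function.Injective (pr P0) :=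
  (Nat.nth_injective (adm_infinite P0)).comp Encodable.encode_injective

theorem exists_root (r : ℕ) (hr : r.Prime) (h4 : r % 4 = 1) : ∃ i : ℤ, (r : ℤ) ∣ i ^ 2 + 1 := by
  have := Fact.mk hr
  obtain ⟨y, hy⟩ := (ZMod.exists_sq_eq_neg_one_iff (p := r)).mpr (by omega)
  refine ⟨(y.val : ℤ), ?_⟩
  rw [← ZMod.intCast_zmod_eq_zero_iff_dvd]
  push_cast
  rw [ZMod.natCast_zmod_val]
  rw [sq, ← hy]; ring

theorem crt (T : Finset (ℤ × ℤ)) (m : ℤ × ℤ → ℕ) (hm : ∀ w ∈ T, m w ≠ 0)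
    (hc : Set.Pairwise (T : Set (ℤ × ℤ)) (Function.onFun Nat.Coprime m)) (τ : ℤ × ℤ → ℤ) :
    ∃ t : ℤ, ∀ w ∈ T, (m w : ℤ) ∣ t - τ w := by
  obtain ⟨k, hk⟩ := Nat.chineseRemainderOfFinset (fun w => (τ w % (m w : ℤ)).toNat) m T hm hc
  refine ⟨k, fun w hw => ?_⟩
  have h1 := hk w hw
  have h2 : ((k : ℕ) : ℤ) ≡ ((τ w % (m w : ℤ)).toNat : ℤ) [ZMOD (m w : ℤ)] :=
    Int.natCast_modEq_iff.mpr h1
  rw [Int.toNat_of_nonneg (Int.emod_nonneg _ (by exact_mod_cast hm w hw))] at h2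
  have h3 : (k : ℤ) ≡ τ w [ZMOD (m w : ℤ)] := h2.trans (Int.mod_modEq _ _)
  exact Int.modEq_iff_dvd.mp h3.symm

theorem exists_solve (r : ℕ) (hr : r.Prime) (A B : ℤ) (hB : ¬ (r : ℤ) ∣ B) :
    ∃ t : ℤ, (r : ℤ) ∣ A + t * B := by
  have hp : Prime (r : ℤ) := Nat.prime_iff_prime_int.mp hr
  have hcop : IsCoprime (r : ℤ) B := hp.coprime_iff_not_dvd.mpr hB
  obtain ⟨g, h, hgh⟩ := hcop
  refine ⟨-A * h, A * g, ?_⟩
  linear_combination (-A) * hgh

theorem exists_int_mul_ge (g : ℝ) (hg : g ≠ 0) (R : ℝ) : ∃ N : ℤ, R ≤ N * g := by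
  rcases lt_or_gt_of_ne hg with h | h
  · refine ⟨-⌈R / (-g)⌉, ?_⟩
    have h1 : R / (-g) ≤ ⌈R / (-g)⌉ := Int.le_ceil _
    rw [div_le_iff₀ (by linarith)] at h1
    push_cast
    linarith
  · refine ⟨⌈R / g⌉, ?_⟩
    have h1 : R / g ≤ ⌈R / g⌉ := Int.le_ceil _
    rwa [div_le_iff₀ h] at h1

theorem small_vector (a b : ℝ) (ha : a ≠ 0) (η : ℝ) (hη : 0 < η) :
    ∃ u v : ℤ, (u ≠ 0 ∨ v ≠ 0) ∧ |a * u + b * v| ≤ η := by
  obtain ⟨n, hn⟩ := exists_nat_gt (|a| / η)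
  have hn0 : 0 < n + 1 := Nat.succ_pos n
  obtain ⟨j, k, hk0, _, hjk⟩ := Real.exists_int_int_abs_mul_sub_le (b / a) hn0
  refine ⟨-j, k, Or.inr hk0.ne', ?_⟩
  have h1 : a * ((-j : ℤ) : ℝ) + b * k = a * (k * (b / a) - j) := by
    push_cast; field_simp; ring
  rw [h1, abs_mul]
  have h2 : |a| * |(k : ℝ) * (b / a) - j| ≤ |a| * (1 / (((n + 1 : ℕ) : ℝ) + 1)) :=
    mul_le_mul_of_nonneg_left hjk (abs_nonneg _)
  have h3 : |a| * (1 / (((n + 1 : ℕ) : ℝ) + 1)) ≤ η := by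
    rw [div_lt_iff₀ hη] at hn
    rw [mul_one_div, div_le_iff₀ (by positivity)]
    push_cast
    nlinarith
  linarith

/-- Density of the values of an irrational linear form on integer points of a half plane. -/
theorem density (a b : ℝ) (hirr : ∀ u v : ℤ, a * u + b * v = 0 → u = 0 ∧ v = 0)
    (c δ R : ℝ) (hδ : 0 < δ) :
    ∃ u v : ℤ, |a * u + b * v - c| ≤ δ ∧ R ≤ -b * u + a * v := by
  have ha : a ≠ 0 := by
    intro h
    have h1 := hirr 1 0 (by simp [h])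
    exact one_ne_zero h1.1
  have ha2 : 0 < |a| / 2 := by positivity
  -- step 1: a point close to the line
  obtain ⟨u1, v1, hne1, hl1⟩ := small_vector a b ha δ hδ
  have hlam0 : a * u1 + b * v1 ≠ 0 := by
    intro h
    have h1 := hirr u1 v1 h
    rcases hne1 with h' | h'
    · exact h' h1.1
    · exact h' h1.2
  obtain ⟨m, hm⟩ : ∃ m : ℤ, m = round (c / (a * u1 + b * v1)) := ⟨_, rfl⟩
  have hm1 : |(m : ℝ) * (a * u1 + b * v1) - c| ≤ δ / 2 := by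
    have h1 : (m : ℝ) * (a * u1 + b * v1) - c
        = (m - c / (a * u1 + b * v1)) * (a * u1 + b * v1) := by field_simp
    rw [h1, abs_mul]
    have h2 : |(m : ℝ) - c / (a * u1 + b * v1)| ≤ 1 / 2 := by
      rw [hm, abs_sub_comm]; exact abs_sub_round _
    nlinarith [abs_nonneg (a * u1 + b * v1), abs_nonneg ((m : ℝ) - c / (a * u1 + b * v1))]
  -- step 2: how far we must travel
  obtain ⟨N, hN⟩ := exists_nat_gt ((R - (-b * (m * u1) + a * (m * v1))) / (|a| / 2))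
  have hN' : R - (-b * (m * u1) + a * (m * v1)) ≤ ((N : ℝ) + 1) * (|a| / 2) := by
    rw [div_lt_iff₀ ha2] at hN
    nlinarith
  have hN1 : (0 : ℝ) < (N : ℝ) + 1 := by positivity
  -- step 3: the traveller
  have hη : 0 < min (|a| / 2) (δ / (2 * ((N : ℝ) + 1))) := lt_min ha2 (by positivity)
  obtain ⟨u2, v2, hne2, hl2⟩ := small_vector a b ha _ hη
  have hl2a : |a * u2 + b * v2| ≤ |a| / 2 := le_trans hl2 (min_le_left _ _)
  have hl2b : |a * u2 + b * v2| ≤ δ / (2 * ((N : ℝ) + 1)) := le_trans hl2 (min_le_right _ _)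
  have hs2 : |a| / 2 ≤ |-b * u2 + a * v2| := by
    have hint : (1 : ℝ) ≤ (u2 : ℝ) ^ 2 + (v2 : ℝ) ^ 2 := by
      have h1 : (1 : ℤ) ≤ u2 ^ 2 + v2 ^ 2 := by
        rcases hne2 with h | h
        · have h2 := Int.one_le_abs h
          nlinarith [sq_abs u2, sq_nonneg v2, abs_nonneg u2]
        · have h2 := Int.one_le_abs h
          nlinarith [sq_abs v2, sq_nonneg u2, abs_nonneg v2]
      exact_mod_cast h1
    have hl2sq : (a * u2 + b * v2) ^ 2 ≤ (|a| / 2) ^ 2 := by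
      rw [← sq_abs (a * u2 + b * v2)]
      exact pow_le_pow_left₀ (abs_nonneg _) hl2a 2
    have h3 : (|a| / 2) ^ 2 ≤ (-b * u2 + a * v2) ^ 2 := by
      nlinarith [sq_abs a, sq_nonneg b, mul_nonneg (sq_nonneg a) (sub_nonneg.mpr hint),
        mul_nonneg (sq_nonneg b) (sub_nonneg.mpr hint)]
    have h4 := sq_le_sq.mp h3
    rwa [abs_of_pos ha2] at h4
  obtain ⟨u3, v3, hl3, hs3⟩ : ∃ u3 v3 : ℤ, |a * u3 + b * v3| ≤ δ / (2 * ((N : ℝ) + 1)) ∧
      |a| / 2 ≤ -b * u3 + a * v3 := by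
    by_cases hsg : 0 ≤ -b * u2 + a * v2
    · exact ⟨u2, v2, hl2b, by rwa [abs_of_nonneg hsg] at hs2⟩
    · refine ⟨-u2, -v2, ?_, ?_⟩
      · have h1 : a * ((-u2 : ℤ) : ℝ) + b * ((-v2 : ℤ) : ℝ) = -(a * u2 + b * v2) := by
          push_cast; ring
        rw [h1, abs_neg]; exact hl2b
      · rw [abs_of_neg (not_le.mp hsg)] at hs2
        push_cast; linarith
  refine ⟨m * u1 + ((N : ℤ) + 1) * u3, m * v1 + ((N : ℤ) + 1) * v3, ?_, ?_⟩
  · have h1 : a * ((m * u1 + ((N : ℤ) + 1) * u3 : ℤ) : ℝ)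
        + b * ((m * v1 + ((N : ℤ) + 1) * v3 : ℤ) : ℝ) - c
        = ((m : ℝ) * (a * u1 + b * v1) - c) + ((N : ℝ) + 1) * (a * u3 + b * v3) := by
      push_cast; ring
    rw [h1]
    have h2 : |((N : ℝ) + 1) * (a * u3 + b * v3)| ≤ δ / 2 := by
      rw [abs_mul, abs_of_pos hN1]
      calc ((N : ℝ) + 1) * |a * u3 + b * v3| ≤ ((N : ℝ) + 1) * (δ / (2 * ((N : ℝ) + 1))) :=
            mul_le_mul_of_nonneg_left hl3 hN1.le
        _ = δ / 2 := by field_simp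
    calc _ ≤ |(m : ℝ) * (a * u1 + b * v1) - c| + |((N : ℝ) + 1) * (a * u3 + b * v3)| :=
          abs_add_le _ _
      _ ≤ δ / 2 + δ / 2 := add_le_add hm1 h2
      _ = δ := by ring
  · have h1 : -b * ((m * u1 + ((N : ℤ) + 1) * u3 : ℤ) : ℝ)
        + a * ((m * v1 + ((N : ℤ) + 1) * v3 : ℤ) : ℝ)
        = (-b * (m * u1) + a * (m * v1)) + ((N : ℝ) + 1) * (-b * u3 + a * v3) := by
      push_cast; ring
    rw [h1]
    have h2 : ((N : ℝ) + 1) * (|a| / 2) ≤ ((N : ℝ) + 1) * (-b * u3 + a * v3) :=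
      mul_le_mul_of_nonneg_left hs3 hN1.le
    linarith

end Vale.Agent.Lib.P015
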