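import Vale.Agent.Lib.P015.Gauss
import Vale.Agent.Lib.P015.Pattern

/-!
# P015 helper: centres of large windows free of Gaussian primes near any line
-/

namespace Vale.Agent.Lib.P015

/-- From a point finder (a lattice point near the line, far along it, satisfying the sieve
congruences) to the centre of a window free of irreducible Gaussian integers. -/
theorem centre_of_finder (a b c K1 : ℝ) (P0 : ℕ)
    (hF : ∀ (T : Finset (ℤ × ℤ)) (r : ℤ × ℤ → ℕ) (i : ℤ × ℤ → ℤ),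
        (∀ w ∈ T, (r w).Prime ∧ P0 < r w ∧ (r w : ℤ) ∣ i w ^ 2 + 1) →
        Set.Pairwise (T : Set (ℤ × ℤ)) (Function.onFun Nat.Coprime r) →
        ∀ R : ℝ, ∃ x y : ℤ, |a * x + b * y - c| ≤ K1 ∧ R ≤ -b * x + a * y ∧
          ∀ w ∈ T, (r w : ℤ) ∣ (x + w.1) + i w * (y + w.2))
    (ρ : ℕ) (R : ℝ) :
    ∃ x y : ℤ, |a * x + b * y - c| ≤ K1 ∧ R ≤ -b * x + a * y ∧
      ∀ u v : ℤ, |u| ≤ ρ → |v| ≤ ρ → ¬ Irreducible (⟨x + u, y + v⟩ : GaussianInt) := by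
  classical
  obtain ⟨T, hT⟩ : ∃ T : Finset (ℤ × ℤ), T = Finset.Icc (-(ρ : ℤ)) ρ ×ˢ Finset.Icc (-(ρ : ℤ)) ρ :=
    ⟨_, rfl⟩
  have hadm := pr_adm P0
  choose i hi using fun w => exists_root (pr P0 w) (hadm w).1 (hadm w).2.1
  obtain ⟨Q, hQ⟩ : ∃ Q : ℕ, Q = ∏ w ∈ T, pr P0 w := ⟨_, rfl⟩
  obtain ⟨x, y, h1, h2, h3⟩ := hF T (pr P0) i (fun w _ => ⟨(hadm w).1, (hadm w).2.2, hi w⟩)
    (by
      intro w _ w' _ hne
      exact (Nat.coprime_primes (hadm w).1 (hadm w').1).mpr (fun h => hne (pr_injective P0 h)))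
    (max R ((|a| + |b|) * ρ + (a ^ 2 + b ^ 2 + 1) * ((Q : ℝ) + 1)))
  refine ⟨x, y, h1, le_trans (le_max_left _ _) h2, ?_⟩
  intro u v hu hv
  have hw : (u, v) ∈ T := by
    rw [hT, Finset.mem_product, Finset.mem_Icc, Finset.mem_Icc]
    exact ⟨abs_le.mp hu, abs_le.mp hv⟩
  have hdiv := h3 (u, v) hw
  apply not_irreducible_of_lin (pr P0 (u, v)) (hadm _).1 (hadm _).2.1 (i (u, v)) _ _ (hi _) hdiv
  have hle : pr P0 (u, v) ≤ Q := by
    rw [hQ]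
    exact Nat.le_of_dvd (Finset.prod_pos fun w _ => (hadm w).1.pos) (Finset.dvd_prod_of_mem _ hw)
  have hs : (a ^ 2 + b ^ 2 + 1) * ((Q : ℝ) + 1) ≤ -b * ((x : ℝ) + u) + a * ((y : ℝ) + v) := by
    have h4 := le_trans (le_max_right _ _) h2
    have hu' : |(u : ℝ)| ≤ ρ := by exact_mod_cast hu
    have hv' : |(v : ℝ)| ≤ ρ := by exact_mod_cast hv
    have h5 : |b * u| ≤ |b| * ρ := by
      rw [abs_mul]; exact mul_le_mul_of_nonneg_left hu' (abs_nonneg _)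
    have h6 : |a * v| ≤ |a| * ρ := by
      rw [abs_mul]; exact mul_le_mul_of_nonneg_left hv' (abs_nonneg _)
    have h7 := abs_le.mp h5
    have h8 := abs_le.mp h6
    linarith
  by_contra hcon
  have hcon := not_lt.mp hcon
  have hcon' : ((x : ℝ) + u) ^ 2 + ((y : ℝ) + v) ^ 2 ≤ Q := by
    have h4 : ((x + u) ^ 2 + (y + v) ^ 2 : ℤ) ≤ (Q : ℤ) := le_trans hcon (by exact_mod_cast hle)
    exact_mod_cast h4
  have hQ0 : (0 : ℝ) ≤ Q := Nat.cast_nonneg _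
  have hn0 : 0 ≤ a ^ 2 + b ^ 2 := by positivity
  have hid : (a ^ 2 + b ^ 2) * (((x : ℝ) + u) ^ 2 + ((y : ℝ) + v) ^ 2)
      = (a * ((x : ℝ) + u) + b * ((y : ℝ) + v)) ^ 2
        + (-b * ((x : ℝ) + u) + a * ((y : ℝ) + v)) ^ 2 := by ring
  have hX1 : 1 ≤ (a ^ 2 + b ^ 2 + 1) * ((Q : ℝ) + 1) := by nlinarith [mul_nonneg hn0 hQ0]
  have hS2 : ((a ^ 2 + b ^ 2 + 1) * ((Q : ℝ) + 1)) ^ 2
      ≤ (-b * ((x : ℝ) + u) + a * ((y : ℝ) + v)) ^ 2 :=
    pow_le_pow_left₀ (by linarith) hs 2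
  have h9 : (a ^ 2 + b ^ 2) * (((x : ℝ) + u) ^ 2 + ((y : ℝ) + v) ^ 2) ≤ (a ^ 2 + b ^ 2) * Q :=
    mul_le_mul_of_nonneg_left hcon' hn0
  nlinarith [sq_nonneg (a * ((x : ℝ) + u) + b * ((y : ℝ) + v)), mul_nonneg hn0 hQ0]

/-- Point finder when the linear form has no nonzero integer zero. -/
theorem finder_irrational (a b c : ℝ) (hirr : ∀ u v : ℤ, a * u + b * v = 0 → u = 0 ∧ v = 0)
    (T : Finset (ℤ × ℤ)) (r : ℤ × ℤ → ℕ) (i : ℤ × ℤ → ℤ)
    (hr : ∀ w ∈ T, (r w).Prime ∧ 0 < r w ∧ (r w : ℤ) ∣ i w ^ 2 + 1)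
    (hc : Set.Pairwise (T : Set (ℤ × ℤ)) (Function.onFun Nat.Coprime r)) (R : ℝ) :
    ∃ x y : ℤ, |a * x + b * y - c| ≤ 1 ∧ R ≤ -b * x + a * y ∧
      ∀ w ∈ T, (r w : ℤ) ∣ (x + w.1) + i w * (y + w.2) := by
  obtain ⟨Q, hQ⟩ : ∃ Q : ℕ, Q = ∏ w ∈ T, r w := ⟨_, rfl⟩
  have hQpos : 0 < Q := by
    rw [hQ]; exact Finset.prod_pos fun w hw => (hr w hw).2.1
  have hQr : (0 : ℝ) < Q := by exact_mod_cast hQpos
  obtain ⟨x0, hx0⟩ := crt T r (fun w hw => (hr w hw).2.1.ne') hc (fun w => -(w.1 + i w * w.2))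
  obtain ⟨u, v, h1, h2⟩ := density a b hirr ((c - a * x0) / Q) (1 / Q) ((R + b * x0) / Q)
    (by positivity)
  refine ⟨x0 + Q * u, Q * v, ?_, ?_, ?_⟩
  · have h3 : a * ((x0 + Q * u : ℤ) : ℝ) + b * ((Q * v : ℤ) : ℝ) - c
        = Q * (a * u + b * v - (c - a * x0) / Q) := by
      push_cast; field_simp; ring
    rw [h3, abs_mul, abs_of_pos hQr]
    calc (Q : ℝ) * |a * u + b * v - (c - a * x0) / Q| ≤ Q * (1 / Q) :=
          mul_le_mul_of_nonneg_left h1 hQr.le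
      _ = 1 := by field_simp
  · have h3 : -b * ((x0 + Q * u : ℤ) : ℝ) + a * ((Q * v : ℤ) : ℝ)
        = -b * x0 + Q * (-b * u + a * v) := by
      push_cast; ring
    rw [h3]
    have h4 : (Q : ℝ) * ((R + b * x0) / Q) ≤ Q * (-b * u + a * v) :=
      mul_le_mul_of_nonneg_left h2 hQr.le
    have h5 : (Q : ℝ) * ((R + b * x0) / Q) = R + b * x0 := by field_simp
    linarith
  · intro w hw
    have h3 : (r w : ℤ) ∣ (Q : ℤ) := by
      rw [hQ]; exact_mod_cast Finset.dvd_prod_of_mem r hw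
    have h4 : (x0 + Q * u + w.1) + i w * (Q * v + w.2)
        = (x0 - -(w.1 + i w * w.2)) + Q * (u + i w * v) := by ring
    rw [h4]
    exact dvd_add (hx0 w hw) (h3.mul_right _)

/-- Point finder when the linear form vanishes at a nonzero integer vector. -/
theorem finder_rational (a b c : ℝ) (hab : a ≠ 0 ∨ b ≠ 0) (β1 β2 : ℤ) (hβ : β1 ≠ 0 ∨ β2 ≠ 0)
    (hz : a * β1 + b * β2 = 0)
    (T : Finset (ℤ × ℤ)) (r : ℤ × ℤ → ℕ) (i : ℤ × ℤ → ℤ)
    (hr : ∀ w ∈ T, (r w).Prime ∧ (β1 ^ 2 + β2 ^ 2).natAbs < r w ∧ (r w : ℤ) ∣ i w ^ 2 + 1)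
    (hc : Set.Pairwise (T : Set (ℤ × ℤ)) (Function.onFun Nat.Coprime r)) (R : ℝ) :
    ∃ x y : ℤ, |a * x + b * y - c| ≤ |a| + |b| ∧ R ≤ -b * x + a * y ∧
      ∀ w ∈ T, (r w : ℤ) ∣ (x + w.1) + i w * (y + w.2) := by
  -- a lattice point near the line
  obtain ⟨α1, α2, hα⟩ : ∃ α1 α2 : ℤ, |a * α1 + b * α2 - c| ≤ |a| + |b| := by
    rcases hab with h | h
    · refine ⟨round (c / a), 0, ?_⟩
      have h1 : a * (round (c / a) : ℝ) + b * ((0 : ℤ) : ℝ) - c = a * (round (c / a) - c / a) := by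
        push_cast; field_simp; ring
      rw [h1, abs_mul]
      have h2 : |(round (c / a) : ℝ) - c / a| ≤ 1 / 2 := by
        rw [abs_sub_comm]; exact abs_sub_round _
      nlinarith [abs_nonneg a, abs_nonneg b, abs_nonneg ((round (c / a) : ℝ) - c / a)]
    · refine ⟨0, round (c / b), ?_⟩
      have h1 : a * ((0 : ℤ) : ℝ) + b * (round (c / b) : ℝ) - c = b * (round (c / b) - c / b) := by
        push_cast; field_simp; ring
      rw [h1, abs_mul]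
      have h2 : |(round (c / b) : ℝ) - c / b| ≤ 1 / 2 := by
        rw [abs_sub_comm]; exact abs_sub_round _
      nlinarith [abs_nonneg a, abs_nonneg b, abs_nonneg ((round (c / b) : ℝ) - c / b)]
  have hβpos : 0 < β1 ^ 2 + β2 ^ 2 := by
    rcases hβ with h | h
    · have := sq_pos_of_ne_zero h; nlinarith [sq_nonneg β2]
    · have := sq_pos_of_ne_zero h; nlinarith [sq_nonneg β1]
  -- the direction is invertible modulo every prime of the pattern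
  have hB : ∀ w ∈ T, ¬ (r w : ℤ) ∣ β1 + i w * β2 := by
    intro w hw hdvd
    obtain ⟨hp, hgt, hi⟩ := hr w hw
    have h1 : (r w : ℤ) ∣ β1 ^ 2 + β2 ^ 2 := by
      have h2 : β1 ^ 2 + β2 ^ 2 = (β1 + i w * β2) * (β1 - i w * β2) + (i w ^ 2 + 1) * β2 ^ 2 := by
        ring
      rw [h2]
      exact dvd_add (hdvd.mul_right _) (hi.mul_right _)
    have h3 : r w ∣ (β1 ^ 2 + β2 ^ 2).natAbs := Int.natCast_dvd.mp h1
    have h4 : 0 < (β1 ^ 2 + β2 ^ 2).natAbs := Int.natAbs_pos.mpr hβpos.ne'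
    exact absurd (Nat.le_of_dvd h4 h3) (not_le.mpr hgt)
  have hsolve : ∀ w : ℤ × ℤ, ∃ t : ℤ, w ∈ T →
      (r w : ℤ) ∣ ((α1 + w.1) + i w * (α2 + w.2)) + t * (β1 + i w * β2) := by
    intro w
    by_cases hw : w ∈ T
    · obtain ⟨t, ht⟩ := exists_solve (r w) (hr w hw).1 ((α1 + w.1) + i w * (α2 + w.2))
        (β1 + i w * β2) (hB w hw)
      exact ⟨t, fun _ => ht⟩
    · exact ⟨0, fun h => absurd h hw⟩
  choose τ hτ using hsolve
  obtain ⟨t0, ht0⟩ := crt T r (fun w hw => (hr w hw).1.pos.ne') hc τ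
  obtain ⟨Q, hQ⟩ : ∃ Q : ℕ, Q = ∏ w ∈ T, r w := ⟨_, rfl⟩
  have hQpos : 0 < Q := by
    rw [hQ]; exact Finset.prod_pos fun w hw => (hr w hw).1.pos
  have hQr : (0 : ℝ) < Q := by exact_mod_cast hQpos
  -- the direction has nonzero transversal component
  have hσ : -b * β1 + a * β2 ≠ 0 := by
    intro h
    have hid : (a * β1 + b * β2) ^ 2 + (-b * β1 + a * β2) ^ 2
        = (a ^ 2 + b ^ 2) * ((β1 : ℝ) ^ 2 + (β2 : ℝ) ^ 2) := by ring
    rw [hz, h] at hid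
    have h1 : 0 < a ^ 2 + b ^ 2 := by
      rcases hab with h' | h' <;> positivity
    have h2 : (0 : ℝ) < (β1 : ℝ) ^ 2 + (β2 : ℝ) ^ 2 := by exact_mod_cast hβpos
    have h3 := mul_pos h1 h2
    have h4 : (0 : ℝ) ^ 2 + 0 ^ 2 = 0 := by norm_num
    linarith
  obtain ⟨N, hN⟩ := exists_int_mul_ge ((Q : ℝ) * (-b * β1 + a * β2)) (mul_ne_zero hQr.ne' hσ)
    (R - (-b * α1 + a * α2) - t0 * (-b * β1 + a * β2))
  refine ⟨α1 + (t0 + N * Q) * β1, α2 + (t0 + N * Q) * β2, ?_, ?_, ?_⟩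
  · have h1 : a * ((α1 + (t0 + N * Q) * β1 : ℤ) : ℝ) + b * ((α2 + (t0 + N * Q) * β2 : ℤ) : ℝ) - c
        = (a * α1 + b * α2 - c) + ((t0 : ℝ) + N * Q) * (a * β1 + b * β2) := by
      push_cast; ring
    rw [h1, hz, mul_zero, add_zero]
    exact hα
  · have h1 : -b * ((α1 + (t0 + N * Q) * β1 : ℤ) : ℝ) + a * ((α2 + (t0 + N * Q) * β2 : ℤ) : ℝ)
        = (-b * α1 + a * α2) + t0 * (-b * β1 + a * β2)
          + N * ((Q : ℝ) * (-b * β1 + a * β2)) := by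
      push_cast; ring
    rw [h1]
    linarith
  · intro w hw
    have h3 : (r w : ℤ) ∣ (Q : ℤ) := by
      rw [hQ]; exact_mod_cast Finset.dvd_prod_of_mem r hw
    have h4 : (α1 + (t0 + N * Q) * β1 + w.1) + i w * (α2 + (t0 + N * Q) * β2 + w.2)
        = (((α1 + w.1) + i w * (α2 + w.2)) + τ w * (β1 + i w * β2))
          + (t0 - τ w) * (β1 + i w * β2) + Q * (N * (β1 + i w * β2)) := by ring
    rw [h4]
    exact dvd_add (dvd_add (hτ w hw) ((ht0 w hw).mul_right _)) (h3.mul_right _)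

/-- Near every real line and arbitrarily far along it there are arbitrarily large square
windows of the lattice containing no irreducible Gaussian integer; the distance of the
window centre from the line is bounded independently of the window size. -/
theorem centre (a b : ℝ) (hab : a ≠ 0 ∨ b ≠ 0) :
    ∃ K1 : ℝ, ∀ (c : ℝ) (ρ : ℕ) (R : ℝ), ∃ x y : ℤ,
      |a * x + b * y - c| ≤ K1 ∧ R ≤ -b * x + a * y ∧
      ∀ u v : ℤ, |u| ≤ ρ → |v| ≤ ρ → ¬ Irreducible (⟨x + u, y + v⟩ : GaussianInt) := by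
  by_cases hirr : ∀ u v : ℤ, a * u + b * v = 0 → u = 0 ∧ v = 0
  · exact ⟨1, fun c ρ R => centre_of_finder a b c 1 0
      (fun T r i hr hc R' => finder_irrational a b c hirr T r i hr hc R') ρ R⟩
  · have hex : ∃ u v : ℤ, a * u + b * v = 0 ∧ ¬ (u = 0 ∧ v = 0) := by
      by_contra hcon
      exact hirr (fun u v h => by_contra fun hne => hcon ⟨u, v, h, hne⟩)
    obtain ⟨β1, β2, hz, hne⟩ := hex
    have hβ : β1 ≠ 0 ∨ β2 ≠ 0 := by
      by_cases h : β1 = 0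
      · exact Or.inr (fun h2 => hne ⟨h, h2⟩)
      · exact Or.inl h
    exact ⟨|a| + |b|, fun c ρ R => centre_of_finder a b c _ (β1 ^ 2 + β2 ^ 2).natAbs
      (fun T r i hr hc R' => finder_rational a b c hab β1 β2 hβ hz T r i hr hc R') ρ R⟩

end Vale.Agent.Lib.P015
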