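import Vale.Agent.Lib.P015.Pattern

/-!
# P015 helper: no bounded-step walk on Gaussian primes near a polynomial curve

For an integer polynomial `P` and a nonzero integer `q`, the lattice points `(x, y)` with
`|q y - P x| ≤ K` (a neighbourhood of the curve `y = P x / q`) carry no infinite sequence of
pairwise distinct Gaussian primes with bounded steps.
-/

namespace Vale.Agent.Lib.P015

/-- A Gaussian integer whose norm is divisible by a rational prime `r` and exceeds `r ^ 2`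
is not irreducible. -/
theorem not_irreducible_of_prime_dvd_norm (z : GaussianInt) (r : ℕ) (hr : r.Prime)
    (hd : (r : ℤ) ∣ z.norm) (hbig : (r : ℤ) ^ 2 < z.norm) : ¬ Irreducible z := by
  intro hz
  have hzp : Prime z := hz.prime
  have hN0 : 0 ≤ z.norm := GaussianInt.norm_nonneg z
  obtain ⟨N, hN⟩ : ∃ N : ℕ, (N : ℤ) = z.norm := ⟨z.norm.natAbs, Int.natAbs_of_nonneg hN0⟩
  have hNpos : N ≠ 0 := by
    intro h
    rw [h] at hN
    have h1 : (0 : ℤ) ≤ (r : ℤ) ^ 2 := by positivity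
    have h2 : (0 : ℤ) = z.norm := by exact_mod_cast hN
    linarith
  have hzN : z ∣ ((N : ℕ) : GaussianInt) := by
    have h1 : ((N : ℕ) : GaussianInt) = ((z.norm : ℤ) : GaussianInt) := by
      rw [← hN]; push_cast; rfl
    rw [h1, Zsqrtd.norm_eq_mul_conj]
    exact dvd_mul_right _ _
  -- z divides a rational prime factor of N
  obtain ⟨p, hp, hpN, hzp'⟩ : ∃ p : ℕ, p.Prime ∧ p ∣ N ∧ z ∣ ((p : ℕ) : GaussianInt) := by
    have h1 : ((N : ℕ) : GaussianInt)
        = (N.primeFactorsList.map (fun p : ℕ => (p : GaussianInt))).prod := by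
      rw [← Nat.cast_list_prod, Nat.prod_primeFactorsList hNpos]
    rw [h1] at hzN
    obtain ⟨a, ha, hza⟩ := (Prime.dvd_prod_iff hzp).mp hzN
    obtain ⟨p, hpmem, rfl⟩ := List.mem_map.mp ha
    exact ⟨p, Nat.prime_of_mem_primeFactorsList hpmem, Nat.dvd_of_mem_primeFactorsList hpmem, hza⟩
  obtain ⟨w, hw⟩ := hzp'
  have hnorm : (p : ℤ) * p = z.norm * w.norm := by
    have h1 := congrArg Zsqrtd.norm hw
    rw [Zsqrtd.norm_natCast, Zsqrtd.norm_mul] at h1
    exact h1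
  have hrp : r = p := by
    have h1 : (r : ℤ) ∣ (p : ℤ) * p := by rw [hnorm]; exact hd.mul_right _
    have h2 : r ∣ p * p := by exact_mod_cast h1
    rcases (Nat.Prime.dvd_mul hr).mp h2 with h | h
    · exact (Nat.prime_dvd_prime_iff_eq hr hp).mp h
    · exact (Nat.prime_dvd_prime_iff_eq hr hp).mp h
  have hw0 : 0 ≤ w.norm := GaussianInt.norm_nonneg w
  have hwpos : 0 < w.norm := by
    rcases hw0.lt_or_eq with h | h
    · exact h
    · rw [← h, mul_zero] at hnorm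
      have hp0 : (0 : ℤ) < p := by exact_mod_cast hp.pos
      nlinarith
  have hle : z.norm ≤ (r : ℤ) ^ 2 := by
    rw [hrp]
    nlinarith
  linarith

/-- A Schur-type statement: the values of `q ^ 2 * t ^ 2 + g(t) ^ 2` have arbitrarily large
prime divisors. -/
theorem exists_prime_root (g : Polynomial ℤ) (q : ℤ) (hq : q ≠ 0) (B : ℕ) :
    ∃ r : ℕ, r.Prime ∧ B < r ∧ ∃ t : ℤ, (r : ℤ) ∣ q ^ 2 * t ^ 2 + (g.eval t) ^ 2 := by
  by_cases h0 : g.eval 0 = 0
  · obtain ⟨r, hBr, hr⟩ := Nat.exists_infinite_primes (B + 1)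
    refine ⟨r, hr, by omega, (r : ℤ), ?_⟩
    have h1 : (r : ℤ) ∣ g.eval (r : ℤ) := by
      have h2 := Polynomial.sub_dvd_eval_sub (r : ℤ) 0 g
      rwa [sub_zero, h0, sub_zero] at h2
    exact dvd_add ((dvd_pow_self _ (by norm_num)).mul_left _) (h1.trans (dvd_pow_self _ (by norm_num)))
  · obtain ⟨m, hm⟩ : ∃ m : ℕ, m = (B + 2).factorial := ⟨_, rfl⟩
    have hm2 : 2 ≤ m := by
      rw [hm]
      calc 2 = (2 : ℕ).factorial := rfl
        _ ≤ (B + 2).factorial := Nat.factorial_le (by omega)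
    obtain ⟨h', hh'⟩ := Polynomial.sub_dvd_eval_sub ((m : ℤ) * g.eval 0) 0 g
    rw [sub_zero] at hh'
    have hval : g.eval ((m : ℤ) * g.eval 0) = g.eval 0 * (1 + m * h') := by linear_combination hh'
    obtain ⟨Φ, hΦ⟩ : ∃ Φ : ℤ, Φ = q ^ 2 * (m : ℤ) ^ 2 + (1 + m * h') ^ 2 := ⟨_, rfl⟩
    have hΦbig : 1 < Φ := by
      have hq2 : 1 ≤ q ^ 2 := by
        have := Int.one_le_abs hq
        nlinarith [sq_abs q, abs_nonneg q]
      have hm2' : (2 : ℤ) ≤ m := by exact_mod_cast hm2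
      rw [hΦ]
      nlinarith [sq_nonneg (1 + (m : ℤ) * h')]
    have hne1 : Φ.natAbs ≠ 1 := by
      intro h
      have h1 : (Φ.natAbs : ℤ) = Φ := Int.natAbs_of_nonneg (by linarith)
      rw [h] at h1
      have : (1 : ℤ) = Φ := by exact_mod_cast h1
      linarith
    obtain ⟨r, hr, hrΦ⟩ := Nat.exists_prime_and_dvd hne1
    have hrΦ' : (r : ℤ) ∣ Φ := Int.natCast_dvd.mpr hrΦ
    refine ⟨r, hr, ?_, (m : ℤ) * g.eval 0, ?_⟩
    · by_contra hcon
      have hle : r ≤ B + 2 := by omega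
      have h1 : r ∣ m := by rw [hm]; exact Nat.dvd_factorial hr.pos hle
      have h2 : (r : ℤ) ∣ (m : ℤ) := by exact_mod_cast h1
      have h3 : (r : ℤ) ∣ Φ - (m : ℤ) * (q ^ 2 * m + 2 * h' + m * h' ^ 2) :=
        dvd_sub hrΦ' (h2.mul_right _)
      have h4 : Φ - (m : ℤ) * (q ^ 2 * m + 2 * h' + m * h' ^ 2) = 1 := by rw [hΦ]; ring
      rw [h4] at h3
      have h5 : r ∣ 1 := by exact_mod_cast h3
      exact hr.one_lt.ne' (Nat.dvd_one.mp h5)
    · have h1 : q ^ 2 * ((m : ℤ) * g.eval 0) ^ 2 + (g.eval ((m : ℤ) * g.eval 0)) ^ 2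
          = g.eval 0 ^ 2 * Φ := by rw [hval, hΦ]; ring
      rw [h1]
      exact hrΦ'.mul_left _

/-- The sequence obtained by iterating a choice function along the standard enumeration of
`ℤ × ℤ`, feeding each choice the previous value. -/
def iterPick (pick : ℤ × ℤ → ℕ → ℕ) : ℕ → ℕ
  | 0 => pick (Denumerable.ofNat (ℤ × ℤ) 0) 0
  | n + 1 => pick (Denumerable.ofNat (ℤ × ℤ) (n + 1)) (iterPick pick n)

/-- Pairwise distinct primes, one for each index `w`, each dividing a value of the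
polynomial attached to `w`. -/
theorem exists_pattern (P : Polynomial ℤ) (q : ℤ) (hq : q ≠ 0) (B : ℕ) :
    ∃ (r : ℤ × ℤ → ℕ) (t : ℤ × ℤ → ℤ), Function.Injective r ∧
      ∀ w, (r w).Prime ∧ B < r w ∧ (r w : ℤ) ∣ q ^ 2 * (t w) ^ 2 + (P.eval (t w) + w.2) ^ 2 := by
  have hS : ∀ (w : ℤ × ℤ) (b : ℕ), ∃ r : ℕ, b < r ∧ r.Prime ∧ B < r ∧
      ∃ t : ℤ, (r : ℤ) ∣ q ^ 2 * t ^ 2 + (P.eval t + w.2) ^ 2 := by
    intro w b
    obtain ⟨r, hr, hlt, t, ht⟩ := exists_prime_root (P + Polynomial.C w.2) q hq (max b B)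
    refine ⟨r, lt_of_le_of_lt (le_max_left _ _) hlt, hr, lt_of_le_of_lt (le_max_right _ _) hlt, t, ?_⟩
    simpa using ht
  choose pick hpick using hS
  -- a strictly increasing sequence of primes along an enumeration of the index set
  obtain ⟨seq, hseq⟩ : ∃ seq : ℕ → ℕ, seq = iterPick pick := ⟨_, rfl⟩
  have hseq0 : seq 0 = pick (Denumerable.ofNat (ℤ × ℤ) 0) 0 := by rw [hseq]; rfl
  have hseqS : ∀ n, seq (n + 1) = pick (Denumerable.ofNat (ℤ × ℤ) (n + 1)) (seq n) := by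
    intro n; rw [hseq]; rfl
  have hmono : StrictMono seq := by
    apply strictMono_nat_of_lt_succ
    intro n
    rw [hseqS n]
    exact (hpick _ _).1
  have hprop : ∀ n, (seq n).Prime ∧ B < seq n ∧ ∃ t : ℤ, (seq n : ℤ) ∣
      q ^ 2 * t ^ 2 + (P.eval t + (Denumerable.ofNat (ℤ × ℤ) n).2) ^ 2 := by
    intro n
    cases n with
    | zero => rw [hseq0]; exact (hpick _ _).2
    | succ n => rw [hseqS n]; exact (hpick _ _).2
  have hprop' : ∀ w : ℤ × ℤ, ∃ t : ℤ, (seq (Encodable.encode w) : ℤ) ∣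
      q ^ 2 * t ^ 2 + (P.eval t + w.2) ^ 2 := by
    intro w
    have h1 := (hprop (Encodable.encode w)).2.2
    rwa [Denumerable.ofNat_encode] at h1
  choose t ht using hprop'
  exact ⟨fun w => seq (Encodable.encode w), t, hmono.injective.comp Encodable.encode_injective,
    fun w => ⟨(hprop _).1, (hprop _).2.1, ht w⟩⟩

/-- Arbitrarily far to the right and to the left there are abscissae `X` such that all lattice
points `(X + i, y)` with `|i| ≤ δ` and `|q y - P (X + i)| ≤ κ` are not irreducible. -/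
theorem poly_centre (P : Polynomial ℤ) (q : ℤ) (hq : q ≠ 0) (δ κ : ℕ) (R : ℤ) :
    ∃ Xp Xm : ℤ, R ≤ Xp ∧ Xm ≤ -R ∧
      ∀ X : ℤ, X = Xp ∨ X = Xm → ∀ i j : ℤ, |i| ≤ δ → |j| ≤ κ → ∀ y : ℤ,
        q * y = P.eval (X + i) + j → ¬ Irreducible (⟨X + i, y⟩ : GaussianInt) := by
  classical
  obtain ⟨r, t, hinj, hr⟩ := exists_pattern P q hq q.natAbs
  obtain ⟨T, hT⟩ : ∃ T : Finset (ℤ × ℤ), T = Finset.Icc (-(δ : ℤ)) δ ×ˢ Finset.Icc (-(κ : ℤ)) κ :=
    ⟨_, rfl⟩
  obtain ⟨Q, hQ⟩ : ∃ Q : ℕ, Q = ∏ w ∈ T, r w := ⟨_, rfl⟩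
  have hQpos : 0 < Q := by
    rw [hQ]; exact Finset.prod_pos fun w _ => (hr w).1.pos
  obtain ⟨X0, hX0⟩ := crt T r (fun w _ => (hr w).1.pos.ne')
    (by
      intro w _ w' _ hne
      exact (Nat.coprime_primes (hr w).1 (hr w').1).mpr (fun h => hne (hinj h)))
    (fun w => t w - w.1)
  obtain ⟨n, hn⟩ : ∃ n : ℤ, n = |X0| + |R| + Q + δ + 1 := ⟨_, rfl⟩
  have hQ1 : (1 : ℤ) ≤ Q := by exact_mod_cast hQpos
  have hn0 : 0 ≤ n := by rw [hn]; positivity
  have hnQ : n ≤ n * Q := by nlinarith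
  have hX0a := abs_nonneg X0
  have hRa := abs_nonneg R
  have hX0le := le_abs_self X0
  have hX0ge := neg_abs_le X0
  have hRle := le_abs_self R
  have hδ0 : (0 : ℤ) ≤ δ := Int.natCast_nonneg δ
  refine ⟨X0 + n * Q, X0 - n * Q, by linarith, by linarith, ?_⟩
  intro X hX i j hi hj y hy
  have hw : (i, j) ∈ T := by
    rw [hT, Finset.mem_product, Finset.mem_Icc, Finset.mem_Icc]
    exact ⟨abs_le.mp hi, abs_le.mp hj⟩
  obtain ⟨hrp, hrq, hrt⟩ := hr (i, j)
  have hrQ : r (i, j) ∣ Q := by rw [hQ]; exact Finset.dvd_prod_of_mem r hw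
  have hrQ' : (r (i, j) : ℤ) ∣ (Q : ℤ) := by exact_mod_cast hrQ
  have hrleQ : (r (i, j) : ℤ) ≤ Q := by exact_mod_cast Nat.le_of_dvd hQpos hrQ
  have hr0 : (0 : ℤ) < r (i, j) := by exact_mod_cast hrp.pos
  -- X + i is congruent to the root t (i, j)
  have hcong : (r (i, j) : ℤ) ∣ (X + i) - t (i, j) := by
    have h1 := hX0 (i, j) hw
    rcases hX with h | h
    · have h2 : (X + i) - t (i, j) = (X0 - (t (i, j) - i)) + Q * n := by rw [h]; ring
      rw [h2]; exact dvd_add h1 (hrQ'.mul_right _)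
    · have h2 : (X + i) - t (i, j) = (X0 - (t (i, j) - i)) - Q * n := by rw [h]; ring
      rw [h2]; exact dvd_sub h1 (hrQ'.mul_right _)
  -- hence the prime divides the value at X + i
  have hdiv : (r (i, j) : ℤ) ∣ q ^ 2 * (X + i) ^ 2 + (P.eval (X + i) + j) ^ 2 := by
    obtain ⟨F, hF⟩ : ∃ F : Polynomial ℤ, F = Polynomial.C (q ^ 2) * Polynomial.X ^ 2
        + (P + Polynomial.C j) ^ 2 := ⟨_, rfl⟩
    have hFe : ∀ s : ℤ, F.eval s = q ^ 2 * s ^ 2 + (P.eval s + j) ^ 2 := by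
      intro s; rw [hF]; simp
    have h1 := Polynomial.sub_dvd_eval_sub (X + i) (t (i, j)) F
    rw [hFe, hFe] at h1
    have h2 := dvd_add (hcong.trans h1) hrt
    simpa using h2
  -- so it divides the norm
  have hnorm : (⟨X + i, y⟩ : GaussianInt).norm = (X + i) ^ 2 + y ^ 2 := by
    rw [Zsqrtd.norm_def]; ring
  have hdn : (r (i, j) : ℤ) ∣ (⟨X + i, y⟩ : GaussianInt).norm := by
    have h1 : q ^ 2 * (X + i) ^ 2 + (P.eval (X + i) + j) ^ 2 = q ^ 2 * ((X + i) ^ 2 + y ^ 2) := by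
      rw [← hy]; ring
    rw [h1] at hdiv
    have hpr : Prime (r (i, j) : ℤ) := Nat.prime_iff_prime_int.mp hrp
    rcases hpr.dvd_or_dvd hdiv with h | h
    · exfalso
      have h2 : (r (i, j) : ℤ) ∣ q := hpr.dvd_of_dvd_pow h
      have h3 : r (i, j) ∣ q.natAbs := Int.natCast_dvd.mp h2
      have h4 : r (i, j) ≤ q.natAbs := Nat.le_of_dvd (Int.natAbs_pos.mpr hq) h3
      omega
    · rw [hnorm]; exact h
  apply not_irreducible_of_prime_dvd_norm _ (r (i, j)) hrp hdn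
  rw [hnorm]
  -- |X + i| > Q ≥ r
  have hi' := abs_le.mp hi
  have hbig : (Q : ℤ) + 1 ≤ |X + i| := by
    rcases hX with h | h
    · have h1 : (Q : ℤ) + 1 ≤ X + i := by rw [h]; linarith
      exact le_trans h1 (le_abs_self _)
    · have h1 : (Q : ℤ) + 1 ≤ -(X + i) := by rw [h]; linarith
      exact le_trans h1 (neg_le_abs _)
  have hsq : ((Q : ℤ) + 1) ^ 2 ≤ (X + i) ^ 2 := by
    rw [← sq_abs (X + i)]
    exact pow_le_pow_left₀ (by linarith) hbig 2
  nlinarith [sq_nonneg y]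

/-- No infinite sequence of pairwise distinct irreducible Gaussian integers with bounded steps
stays in the region `|q y - P x| ≤ K`. -/
theorem no_walk_poly (P : Polynomial ℤ) (q : ℤ) (hq : q ≠ 0) (K D : ℝ) (z : ℕ → GaussianInt)
    (hinj : Function.Injective z) (hirr : ∀ k, Irreducible (z k))
    (hstep : ∀ k, (((z (k + 1)).re : ℝ) - (z k).re) ^ 2
      + (((z (k + 1)).im : ℝ) - (z k).im) ^ 2 ≤ D ^ 2)
    (hreg : ∀ k, |(q : ℝ) * ((z k).im : ℝ) - ((P.eval (z k).re : ℤ) : ℝ)| ≤ K) : False := by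
  obtain ⟨δ, hδ⟩ := exists_nat_ge |D|
  obtain ⟨κ, hκ⟩ := exists_nat_ge K
  obtain ⟨Xp, Xm, hXp, hXm, hcomp⟩ := poly_centre P q hq δ κ (|(z 0).re| + 1)
  have hx0a := le_abs_self (z 0).re
  have hx0b := neg_abs_le (z 0).re
  -- integer step bound
  have hdx : ∀ k, |(z (k + 1)).re - (z k).re| ≤ (δ : ℤ) := by
    intro k
    have h1 : |((z (k + 1)).re : ℝ) - (z k).re| ≤ |D| := by
      apply sq_le_sq.mp
      nlinarith [hstep k, sq_nonneg (((z (k + 1)).im : ℝ) - (z k).im)]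
    have h2 : |((z (k + 1)).re : ℝ) - (z k).re| ≤ (δ : ℝ) := le_trans h1 hδ
    exact_mod_cast h2
  -- integer form of the region
  have hj : ∀ k, |q * (z k).im - P.eval (z k).re| ≤ (κ : ℤ) := by
    intro k
    have h1 : |(q : ℝ) * ((z k).im : ℝ) - ((P.eval (z k).re : ℤ) : ℝ)| ≤ (κ : ℝ) :=
      le_trans (hreg k) hκ
    exact_mod_cast h1
  -- a point of the walk inside a window gives a contradiction
  have hwin : ∀ X : ℤ, X = Xp ∨ X = Xm → ∀ k, ¬ |(z k).re - X| ≤ (δ : ℤ) := by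
    intro X hX k hk
    have h1 := hcomp X hX ((z k).re - X) (q * (z k).im - P.eval (z k).re) hk (hj k) (z k).im
      (by rw [show X + ((z k).re - X) = (z k).re by ring]; ring)
    have h2 : (⟨X + ((z k).re - X), (z k).im⟩ : GaussianInt) = z k := Zsqrtd.ext (by simp) rfl
    rw [h2] at h1
    exact h1 (hirr k)
  have up : ∀ k, (z k).re < Xp := by
    intro k
    induction k with
    | zero => linarith
    | succ k ih =>
      by_contra hcon
      have hcon := not_lt.mp hcon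
      have h1 := abs_le.mp (hdx k)
      exact hwin Xp (Or.inl rfl) (k + 1) (abs_le.mpr ⟨by linarith, by linarith⟩)
  have down : ∀ k, Xm < (z k).re := by
    intro k
    induction k with
    | zero => linarith
    | succ k ih =>
      by_contra hcon
      have hcon := not_lt.mp hcon
      have h1 := abs_le.mp (hdx k)
      exact hwin Xm (Or.inr rfl) (k + 1) (abs_le.mpr ⟨by linarith, by linarith⟩)
  have hfin : (Set.range z).Finite := by
    apply Set.Finite.subset (((Set.finite_Icc Xm Xp).prod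
      (Set.finite_Icc (-(κ : ℤ)) κ)).image
        (fun s : ℤ × ℤ => (⟨s.1, (P.eval s.1 + s.2) / q⟩ : GaussianInt)))
    rintro _ ⟨k, rfl⟩
    refine ⟨((z k).re, q * (z k).im - P.eval (z k).re),
      ⟨⟨(down k).le, (up k).le⟩, abs_le.mp (hj k)⟩, ?_⟩
    refine Zsqrtd.ext rfl ?_
    show (P.eval (z k).re + (q * (z k).im - P.eval (z k).re)) / q = (z k).im
    rw [show P.eval (z k).re + (q * (z k).im - P.eval (z k).re) = q * (z k).im by ring]
    exact Int.mul_ediv_cancel_left _ hq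
  exact (Set.infinite_range_of_injective hinj) hfin

end Vale.Agent.Lib.P015
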