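import Vale.Agent.Lib.P015.Centre

/-!
# P015 helper: disks free of Gaussian primes centred on an arbitrary real line
-/

namespace Vale.Agent.Lib.P015

/-- On every real line `a x + b y = c` and arbitrarily far along it (in the direction `(-b, a)`)
there is a point which is the centre of a closed disk of radius `|r|` containing no irreducible
Gaussian integer. -/
theorem prime_free_disks (a b c : ℝ) (hab : a ≠ 0 ∨ b ≠ 0) (r R : ℝ) :
    ∃ p q : ℝ, a * p + b * q = c ∧ R ≤ -b * p + a * q ∧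
      ∀ z : GaussianInt, ((z.re : ℝ) - p) ^ 2 + ((z.im : ℝ) - q) ^ 2 ≤ r ^ 2 → ¬ Irreducible z := by
  have hn : 0 < a ^ 2 + b ^ 2 := by
    rcases hab with h | h <;> positivity
  obtain ⟨K1, hK1⟩ := centre a b hab
  obtain ⟨ρ, hρ⟩ := exists_nat_ge (|r| + K1 / (a ^ 2 + b ^ 2) * (|a| + |b|))
  obtain ⟨x, y, h1, h2, h3⟩ := hK1 c ρ R
  have hK10 : 0 ≤ K1 := le_trans (abs_nonneg _) h1
  have hKn : 0 ≤ K1 / (a ^ 2 + b ^ 2) := div_nonneg hK10 hn.le
  obtain ⟨t, ht⟩ : ∃ t : ℝ, t = (a * x + b * y - c) / (a ^ 2 + b ^ 2) := ⟨_, rfl⟩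
  have htn : t * (a ^ 2 + b ^ 2) = a * x + b * y - c := by
    rw [ht]; field_simp
  have htabs : |t| ≤ K1 / (a ^ 2 + b ^ 2) := by
    rw [ht, abs_div, abs_of_pos hn]
    exact (div_le_div_iff_of_pos_right hn).mpr h1
  have hta : |t * a| ≤ K1 / (a ^ 2 + b ^ 2) * (|a| + |b|) := by
    rw [abs_mul]
    calc |t| * |a| ≤ K1 / (a ^ 2 + b ^ 2) * |a| := mul_le_mul_of_nonneg_right htabs (abs_nonneg a)
      _ ≤ K1 / (a ^ 2 + b ^ 2) * (|a| + |b|) :=
          mul_le_mul_of_nonneg_left (by linarith [abs_nonneg b]) hKn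
  have htb : |t * b| ≤ K1 / (a ^ 2 + b ^ 2) * (|a| + |b|) := by
    rw [abs_mul]
    calc |t| * |b| ≤ K1 / (a ^ 2 + b ^ 2) * |b| := mul_le_mul_of_nonneg_right htabs (abs_nonneg b)
      _ ≤ K1 / (a ^ 2 + b ^ 2) * (|a| + |b|) :=
          mul_le_mul_of_nonneg_left (by linarith [abs_nonneg a]) hKn
  refine ⟨x - t * a, y - t * b, by linear_combination (-1 : ℝ) * htn, ?_, ?_⟩
  · have h4 : -b * ((x : ℝ) - t * a) + a * ((y : ℝ) - t * b) = -b * x + a * y := by ring
    rw [h4]; exact h2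
  · intro z hz
    have hre : |(z.re : ℝ) - (x - t * a)| ≤ |r| := by
      apply sq_le_sq.mp
      nlinarith [sq_nonneg ((z.im : ℝ) - (y - t * b))]
    have him : |(z.im : ℝ) - (y - t * b)| ≤ |r| := by
      apply sq_le_sq.mp
      nlinarith [sq_nonneg ((z.re : ℝ) - (x - t * a))]
    have hu : |(z.re : ℝ) - x| ≤ ρ := by
      have h4 : (z.re : ℝ) - x = ((z.re : ℝ) - (x - t * a)) - t * a := by ring
      rw [h4]; exact le_trans (abs_sub _ _) (by linarith)
    have hv : |(z.im : ℝ) - y| ≤ ρ := by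
      have h4 : (z.im : ℝ) - y = ((z.im : ℝ) - (y - t * b)) - t * b := by ring
      rw [h4]; exact le_trans (abs_sub _ _) (by linarith)
    have hui : |z.re - x| ≤ (ρ : ℤ) := by exact_mod_cast hu
    have hvi : |z.im - y| ≤ (ρ : ℤ) := by exact_mod_cast hv
    have h5 := h3 (z.re - x) (z.im - y) hui hvi
    have h6 : (⟨x + (z.re - x), y + (z.im - y)⟩ : GaussianInt) = z :=
      Zsqrtd.ext (by simp) (by simp)
    rwa [h6] at h5

end Vale.Agent.Lib.P015
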