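import Mathlib

/-!
# P015 helper: a compositeness criterion for Gaussian integers

If the norm of a Gaussian integer `z` is divisible by a rational prime `r` with
`r % 4 = 1` and the norm is not `r` itself, then `z` is not irreducible.
-/

namespace Vale.Agent.Lib.P015

/-- A Gaussian integer whose norm is divisible by a rational prime `r` with `r % 4 = 1`,
but is not equal to `r`, is not irreducible. -/
theorem not_irreducible_of_dvd_norm (z : GaussianInt) (r : ℕ) (hr : r.Prime) (h4 : r % 4 = 1)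
    (hd : (r : ℤ) ∣ z.norm) (hne : z.norm ≠ r) : ¬ Irreducible z := by
  intro hz
  have := Fact.mk hr
  obtain ⟨A, B, hAB⟩ := Nat.Prime.sq_add_sq (p := r) (by omega)
  have key : ∀ x : GaussianInt, x.norm = r → x ∣ z → False := by
    intro x hxn hxz
    obtain ⟨u, hu⟩ := hxz
    rcases hz.isUnit_or_isUnit hu with h' | h'
    · have h1 := (Zsqrtd.norm_eq_one_iff' (by norm_num) x).mpr h'
      rw [hxn] at h1
      have h2 : r = 1 := by exact_mod_cast h1
      exact hr.one_lt.ne' h2
    · have h1 := (Zsqrtd.norm_eq_one_iff' (by norm_num) u).mpr h'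
      apply hne
      rw [hu, Zsqrtd.norm_mul, hxn, h1, mul_one]
  set x : GaussianInt := ⟨A, B⟩ with hx
  have hxn : x.norm = r := by
    rw [Zsqrtd.norm_def]; simp only [hx]; rw [← hAB]; push_cast; ring
  have hxirr : Irreducible x := by
    rw [irreducible_iff]
    refine ⟨?_, ?_⟩
    · intro hu
      have h1 := (Zsqrtd.norm_eq_one_iff' (by norm_num) x).mpr hu
      rw [hxn] at h1
      exact hr.one_lt.ne' (by exact_mod_cast h1)
    · intro p q hpq
      have hn : p.norm * q.norm = r := by rw [← Zsqrtd.norm_mul, ← hpq, hxn]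
      have hn' : p.norm.natAbs * q.norm.natAbs = r := by
        have h1 := congrArg Int.natAbs hn
        simpa [Int.natAbs_mul] using h1
      rcases (Nat.Prime.eq_one_or_self_of_dvd hr p.norm.natAbs ⟨_, hn'.symm⟩) with h1 | h1
      · left; exact Zsqrtd.norm_eq_one_iff.mp h1
      · right
        have h2 : q.norm.natAbs = 1 := by
          rw [h1] at hn'
          have hr0 := hr.pos
          nlinarith
        exact Zsqrtd.norm_eq_one_iff.mp h2
  have hxp : Prime x := hxirr.prime
  have h1 : x ∣ z * star z := by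
    rw [← Zsqrtd.norm_eq_mul_conj]
    have h2 : x ∣ ((r : ℤ) : GaussianInt) := by
      refine ⟨star x, ?_⟩
      rw [← Zsqrtd.norm_eq_mul_conj, hxn]
    exact h2.trans ((Zsqrtd.intCast_dvd_intCast _ _).mpr hd)
  rcases hxp.dvd_or_dvd h1 with h | h
  · exact key x hxn h
  · refine key (star x) (by rw [Zsqrtd.norm_conj, hxn]) ?_
    obtain ⟨u, hu⟩ := h
    refine ⟨star u, ?_⟩
    rw [← star_mul', ← hu, star_star]

/-- If `r` divides `i ^ 2 + 1` and the linear form `X + i * Y`, then `r` divides `X ^ 2 + Y ^ 2`;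
so a Gaussian integer `X + Y i` of norm exceeding `r` is not irreducible. -/
theorem not_irreducible_of_lin (r : ℕ) (hr : r.Prime) (h4 : r % 4 = 1) (i X Y : ℤ)
    (hi : (r : ℤ) ∣ i ^ 2 + 1) (h : (r : ℤ) ∣ X + i * Y) (hbig : (r : ℤ) < X ^ 2 + Y ^ 2) :
    ¬ Irreducible (⟨X, Y⟩ : GaussianInt) := by
  have hnorm : (⟨X, Y⟩ : GaussianInt).norm = X ^ 2 + Y ^ 2 := by
    rw [Zsqrtd.norm_def]; ring
  apply not_irreducible_of_dvd_norm _ r hr h4
  · have h1 : (⟨X, Y⟩ : GaussianInt).norm = (X + i * Y) * (X - i * Y) + (i ^ 2 + 1) * Y ^ 2 := by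
      rw [hnorm]; ring
    rw [h1]
    exact dvd_add (h.mul_right _) (hi.mul_right _)
  · rw [hnorm]; exact hbig.ne'

end Vale.Agent.Lib.P015
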