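import Vale.Agent.Lib.P015.Barrier

/-!
# P015 helper: no bounded-step walk on distinct Gaussian primes inside a strip around a line
-/

namespace Vale.Agent.Lib.P015

/-- There is no infinite sequence of pairwise distinct irreducible Gaussian integers with
successive distances at most `|D|` inside the strip `|a x + b y - c| ≤ K`. -/
theorem no_walk (a b c K D : ℝ) (hab : a ≠ 0 ∨ b ≠ 0) (z : ℕ → GaussianInt)
    (hinj : Function.Injective z) (hirr : ∀ k, Irreducible (z k))
    (hstep : ∀ k, (((z (k + 1)).re : ℝ) - (z k).re) ^ 2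
      + (((z (k + 1)).im : ℝ) - (z k).im) ^ 2 ≤ D ^ 2)
    (hstrip : ∀ k, |a * (z k).re + b * (z k).im - c| ≤ K) : False := by
  have hn : 0 < a ^ 2 + b ^ 2 := by
    rcases hab with h | h <;> positivity
  have hn' : 0 < (-a) ^ 2 + (-b) ^ 2 := by rw [neg_sq, neg_sq]; exact hn
  obtain ⟨K1, hK1⟩ := centre a b hab
  obtain ⟨K1', hK1'⟩ := centre (-a) (-b) (by
    rcases hab with h | h
    · exact Or.inl (neg_ne_zero.mpr h)
    · exact Or.inr (neg_ne_zero.mpr h))
  obtain ⟨ρ, hρ⟩ := exists_nat_ge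
    ((|a| + |b|) * (K + max K1 K1' + (|a| + |b|) * |D|) / (a ^ 2 + b ^ 2))
  have hρ' : (|a| + |b|) * (K + max K1 K1' + (|a| + |b|) * |D|) ≤ ρ * (a ^ 2 + b ^ 2) := by
    rwa [div_le_iff₀ hn] at hρ
  obtain ⟨x, y, h1, h2, h3⟩ := hK1 c ρ (-b * (z 0).re + a * (z 0).im + 1)
  obtain ⟨x', y', h1', h2', h3'⟩ := hK1' (-c) ρ (-(-b) * (z 0).re + (-a) * (z 0).im + 1)
  have up := barrier a b c K (max K1 K1') D hn z hirr hstep hstrip ρ hρ' x y
    (le_trans h1 (le_max_left _ _)) h3 (by linarith)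
  have down := barrier (-a) (-b) (-c) K (max K1 K1') D hn' z hirr hstep
    (by
      intro k
      have h4 : -a * ((z k).re : ℝ) + -b * (z k).im - -c
          = -(a * (z k).re + b * (z k).im - c) := by ring
      rw [h4, abs_neg]; exact hstrip k)
    ρ (by rw [abs_neg, abs_neg, neg_sq, neg_sq]; exact hρ') x' y'
    (le_trans h1' (le_max_right _ _)) h3' (by linarith)
  -- the walk is confined to a bounded box
  obtain ⟨B, hB⟩ := exists_nat_ge
    ((|a| + |b|) * (|c| + K + |(-b * (x : ℝ) + a * y)| + |(-b * (x' : ℝ) + a * y')|)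
      / (a ^ 2 + b ^ 2))
  have hB' : (|a| + |b|) * (|c| + K + |(-b * (x : ℝ) + a * y)| + |(-b * (x' : ℝ) + a * y')|)
      ≤ B * (a ^ 2 + b ^ 2) := by
    rwa [div_le_iff₀ hn] at hB
  have hbox : ∀ k, |(z k).re| ≤ (B : ℤ) ∧ |(z k).im| ≤ (B : ℤ) := by
    intro k
    have hu := up k
    have hd := down k
    have hl := hstrip k
    have hK0 : 0 ≤ K := le_trans (abs_nonneg _) hl
    have hL : |a * ((z k).re : ℝ) + b * (z k).im| ≤ |c| + K := by
      have h4 : a * ((z k).re : ℝ) + b * (z k).im = (a * (z k).re + b * (z k).im - c) + c := by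
        ring
      rw [h4]; exact le_trans (abs_add_le _ _) (by linarith)
    have hS : |-b * ((z k).re : ℝ) + a * (z k).im|
        ≤ |(-b * (x : ℝ) + a * y)| + |(-b * (x' : ℝ) + a * y')| := by
      rw [abs_le]
      constructor
      · have h5 := neg_abs_le (-b * (x' : ℝ) + a * y')
        have h6 := abs_nonneg (-b * (x : ℝ) + a * y)
        linarith
      · have h5 := le_abs_self (-b * (x : ℝ) + a * y)
        have h6 := abs_nonneg (-b * (x' : ℝ) + a * y')
        linarith
    have hSig : 0 ≤ |(-b * (x : ℝ) + a * y)| + |(-b * (x' : ℝ) + a * y')| := by positivity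
    have hc0 : 0 ≤ |c| := abs_nonneg c
    have hre1 : |((z k).re : ℝ) * (a ^ 2 + b ^ 2)| ≤ B * (a ^ 2 + b ^ 2) := by
      have h4 : ((z k).re : ℝ) * (a ^ 2 + b ^ 2)
          = a * (a * ((z k).re : ℝ) + b * (z k).im) - b * (-b * ((z k).re : ℝ) + a * (z k).im) := by
        ring
      rw [h4]
      calc _ ≤ |a * (a * ((z k).re : ℝ) + b * (z k).im)|
              + |b * (-b * ((z k).re : ℝ) + a * (z k).im)| := abs_sub _ _
        _ = |a| * |a * ((z k).re : ℝ) + b * (z k).im|
              + |b| * |-b * ((z k).re : ℝ) + a * (z k).im| := by rw [abs_mul, abs_mul]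
        _ ≤ |a| * (|c| + K + |(-b * (x : ℝ) + a * y)| + |(-b * (x' : ℝ) + a * y')|)
              + |b| * (|c| + K + |(-b * (x : ℝ) + a * y)| + |(-b * (x' : ℝ) + a * y')|) :=
            add_le_add (mul_le_mul_of_nonneg_left (by linarith) (abs_nonneg a))
              (mul_le_mul_of_nonneg_left (by linarith) (abs_nonneg b))
        _ = (|a| + |b|) * (|c| + K + |(-b * (x : ℝ) + a * y)| + |(-b * (x' : ℝ) + a * y')|) := by
            ring
        _ ≤ _ := hB'
    have him1 : |((z k).im : ℝ) * (a ^ 2 + b ^ 2)| ≤ B * (a ^ 2 + b ^ 2) := by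
      have h4 : ((z k).im : ℝ) * (a ^ 2 + b ^ 2)
          = b * (a * ((z k).re : ℝ) + b * (z k).im) + a * (-b * ((z k).re : ℝ) + a * (z k).im) := by
        ring
      rw [h4]
      calc _ ≤ |b * (a * ((z k).re : ℝ) + b * (z k).im)|
              + |a * (-b * ((z k).re : ℝ) + a * (z k).im)| := abs_add_le _ _
        _ = |b| * |a * ((z k).re : ℝ) + b * (z k).im|
              + |a| * |-b * ((z k).re : ℝ) + a * (z k).im| := by rw [abs_mul, abs_mul]
        _ ≤ |b| * (|c| + K + |(-b * (x : ℝ) + a * y)| + |(-b * (x' : ℝ) + a * y')|)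
              + |a| * (|c| + K + |(-b * (x : ℝ) + a * y)| + |(-b * (x' : ℝ) + a * y')|) :=
            add_le_add (mul_le_mul_of_nonneg_left (by linarith) (abs_nonneg b))
              (mul_le_mul_of_nonneg_left (by linarith) (abs_nonneg a))
        _ = (|a| + |b|) * (|c| + K + |(-b * (x : ℝ) + a * y)| + |(-b * (x' : ℝ) + a * y')|) := by
            ring
        _ ≤ _ := hB'
    have hre2 : |((z k).re : ℝ)| ≤ B := by
      rw [abs_mul, abs_of_pos hn] at hre1
      exact le_of_mul_le_mul_right hre1 hn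
    have him2 : |((z k).im : ℝ)| ≤ B := by
      rw [abs_mul, abs_of_pos hn] at him1
      exact le_of_mul_le_mul_right him1 hn
    exact ⟨by exact_mod_cast hre2, by exact_mod_cast him2⟩
  have hfin : (Set.range z).Finite := by
    apply Set.Finite.subset (((Set.finite_Icc (-(B : ℤ)) B).prod
      (Set.finite_Icc (-(B : ℤ)) B)).image (fun q : ℤ × ℤ => (⟨q.1, q.2⟩ : GaussianInt)))
    rintro _ ⟨k, rfl⟩
    exact ⟨((z k).re, (z k).im), ⟨abs_le.mp (hbox k).1, abs_le.mp (hbox k).2⟩, rfl⟩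
  exact (Set.infinite_range_of_injective hinj) hfin

end Vale.Agent.Lib.P015
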